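import Vale.Agent.P032X.S5.H180.Face
import Vale.Agent.P032W.S5.H783.OffX

/-!
# P032, carriers: frozen circles about a base

The lemmas of `H783/FZ`, `H783/Frozen` for the irredundant palettes `T`: colours of palettes of `T`
at the points, partners with respect to `Pal U`.
-/

open Set Filter Topology Metric

noncomputable section

namespace Vale.Agent.P032.S5.H180.Fz

open Vale.Agent.P032.Six Vale.Agent.P032.S5.H783

section data

variable {K : ℂ → Set (Fin 6)}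

/-- the data on a frozen circle: a pure arc which ends at a two-coloured point -/
theorem frozen_data {T : Set (Fin 6)} {v : ℂ} (h3 : T.ncard = 3)
    (husc0 : ∀ x, ∀ᶠ z in 𝓝 x, K z ⊆ K x)
    (hQne0 : ∀ y, dist y v = 1 → ∃ i, i ∉ T ∧ i ∈ K y)
    (hQall0 : ∀ y, dist y v = 1 → ∃ i, i ∉ T ∧ i ∉ K y) {c d e : Fin 6}
    (hcov : ∀ i, i ∉ T ↔ i = c ∨ i = d ∨ i = e) (hcd : c ≠ d) (hde : d ≠ e) (hce : c ≠ e)
    (σ : Fin 6 → Fin 6) (hσc : σ c = d) (hσd : σ d = e) (hσe : σ e = c)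
    (hfr : ∀ y, dist y v = 1 → ∀ i, i ∉ T →
      (i ∈ K y ↔ σ i ∈ K (v + cis (Real.pi / 3) * (y - v)))) :
    ∃ (θa θ0 : ℝ) (cc : ℕ → Fin 6), θa < θ0 ∧ θ0 - θa ≤ 1 / 2 ∧ (∀ k, cc k ∉ T) ∧
      (∀ k, cc k ≠ cc (k + 1)) ∧ (∀ k, cc k ≠ cc (k + 2)) ∧ (∀ k, cc (k + 3) = cc k) ∧
      (∀ k, cc k ∈ K (yy v θ0 k)) ∧ (∀ k, ∀ θ ∈ Icc θa θ0, cc k ∈ K (yy v θ k)) ∧
      (∀ k θ i, θa ≤ θ → θ < θ0 → i ∉ T → i ∈ K (yy v θ k) → i = cc k) ∧
      ((∀ k, cc (k + 1) ∈ K (yy v θ0 k) ∧ cc (k + 2) ∉ K (yy v θ0 k)) ∨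
        (∀ k, cc (k + 2) ∈ K (yy v θ0 k) ∧ cc (k + 1) ∉ K (yy v θ0 k))) := by
  have hpi := Real.pi_gt_three
  -- facts on `σ`
  have hσT : ∀ i, i ∉ T → σ i ∉ T := by
    intro i hi
    rcases (hcov i).1 hi with rfl | rfl | rfl
    · rw [hσc]; exact (hcov _).2 (Or.inr (Or.inl rfl))
    · rw [hσd]; exact (hcov _).2 (Or.inr (Or.inr rfl))
    · rw [hσe]; exact (hcov _).2 (Or.inl rfl)
  have hσ1 : ∀ i, i ∉ T → i ≠ σ i := by
    intro i hi
    rcases (hcov i).1 hi with rfl | rfl | rfl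
    · rw [hσc]; exact hcd
    · rw [hσd]; exact hde
    · rw [hσe]; exact hce.symm
  have hσ2 : ∀ i, i ∉ T → i ≠ σ (σ i) := by
    intro i hi
    rcases (hcov i).1 hi with rfl | rfl | rfl
    · rw [hσc, hσd]; exact hce
    · rw [hσd, hσe]; exact hcd.symm
    · rw [hσe, hσc]; exact hde.symm
  have hσ3 : ∀ i, i ∉ T → σ (σ (σ i)) = i := by
    intro i hi
    rcases (hcov i).1 hi with rfl | rfl | rfl
    · rw [hσc, hσd, hσe]
    · rw [hσd, hσe, hσc]
    · rw [hσe, hσc, hσd]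
  have hσcov : ∀ i j, i ∉ T → j ∉ T → j = i ∨ j = σ i ∨ j = σ (σ i) := by
    intro i j hi hj
    exact cover_compl' h3 hi (hσT i hi) (hσT _ (hσT i hi)) (hσ1 i hi) (hσ1 _ (hσT i hi))
      (hσ2 i hi) hj
  -- the sets on the circle
  have hfr' : ∀ θ k i, i ∉ T → (i ∈ K (yy v θ k) ↔ σ i ∈ K (yy v θ (k + 1))) := by
    intro θ k i hi
    rw [yy_succ]
    exact hfr _ (dist_yy v θ k) i hi
  have hcis : ∀ θ, v + cis θ = yy v θ 0 := by intro θ; simp [yy]
  have hQne : ∀ θ, ∃ i, i ∉ T ∧ i ∈ K (yy v θ 0) := by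
    intro θ
    exact hQne0 _ (dist_yy v θ 0)
  have hQall : ∀ θ, ∃ i, i ∉ T ∧ i ∉ K (yy v θ 0) := fun θ =>
    hQall0 _ (dist_yy v θ 0)
  have husc : ∀ θ, ∀ᶠ θ' in 𝓝 θ, K (yy v θ' 0) ⊆ K (yy v θ 0) := fun θ =>
    (continuous_yy v 0).continuousAt.eventually (husc0 (yy v θ 0))
  -- a pure point
  have hpure : ∃ θ m, m ∉ T ∧ ∀ i, i ∉ T → i ∈ K (yy v θ 0) → i = m := by
    by_contra hcon
    push Not at hcon
    -- two colours everywhere
    obtain ⟨i, hi, hi0⟩ := hQall 0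
    have hclopen : IsClopen {θ | i ∉ K (yy v θ 0)} := by
      constructor
      · rw [← isOpen_compl_iff, isOpen_iff_mem_nhds]
        intro θ hθ
        have hθ : i ∈ K (yy v θ 0) := not_not.1 hθ
        filter_upwards [husc θ] with θ' hθ' hcon2
        -- `K θ'` has two colours outside, both different from `i`
        have hcon2 : i ∉ K (yy v θ' 0) := hcon2
        obtain ⟨a, ha, ha'⟩ := hQne θ'
        obtain ⟨b, hb, hb', hba⟩ := hcon θ' a ha
        obtain ⟨m, hm, hm'⟩ := hQall θ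
        rcases cover_compl' h3 hi ha hb (fun h5 => hcon2 (h5 ▸ ha')) hba.symm
          (fun h5 => hcon2 (h5 ▸ hb')) hm with h6 | h6 | h6
        · exact hm' (h6 ▸ hθ)
        · exact hm' (h6 ▸ hθ' ha')
        · exact hm' (h6 ▸ hθ' hb')
      · rw [isOpen_iff_mem_nhds]
        intro θ hθ
        have hθ : i ∉ K (yy v θ 0) := hθ
        filter_upwards [husc θ] with θ' hθ' hcon2
        exact hθ (hθ' hcon2)
    have huniv : {θ | i ∉ K (yy v θ 0)} = univ := hclopen.eq_univ ⟨0, hi0⟩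
    have hall : ∀ θ, i ∉ K (yy v θ 0) := fun θ => by
      have : θ ∈ {θ | i ∉ K (yy v θ 0)} := by rw [huniv]; trivial
      exact this
    -- then `σ i` is absent as well
    have h1 : σ i ∉ K (yy v 0 1) := fun h5 => by
      have := (hfr' 0 0 i hi).2 h5
      exact hall 0 this
    rw [show (1 : ℕ) = 0 + 1 from rfl, ← yy_shift] at h1
    obtain ⟨a, ha, ha'⟩ := hQne (0 + Real.pi / 3)
    obtain ⟨b, hb, hb', hba⟩ := hcon (0 + Real.pi / 3) a ha
    have hi1 := hall (0 + Real.pi / 3)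
    have hcase : ∀ j, j ∉ T → j ∈ K (yy v (0 + Real.pi / 3) 0) → j = σ (σ i) := by
      intro j hj hj'
      rcases hσcov i j hi hj with h6 | h6 | h6
      · exact absurd (h6 ▸ hj') hi1
      · exact absurd (h6 ▸ hj') h1
      · exact h6
    exact hba ((hcase b hb hb').trans (hcase a ha ha').symm)
  obtain ⟨θ1, m, hm, hm1⟩ := hpure
  -- first impure parameter
  set S := {θ | θ1 ≤ θ ∧ ∃ i, i ∉ T ∧ i ≠ m ∧ i ∈ K (yy v θ 0)} with hS
  have hSclosed : IsClosed S := by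
    rw [← isOpen_compl_iff, isOpen_iff_mem_nhds]
    intro θ hθ
    by_cases hle1 : θ1 ≤ θ
    · have hθ2 : ∀ i, i ∉ T → i ≠ m → i ∉ K (yy v θ 0) := by
        intro i hi him hik
        exact hθ ⟨hle1, i, hi, him, hik⟩
      filter_upwards [husc θ] with θ' hθ'
      rintro ⟨-, i, hi, him, hik⟩
      exact hθ2 i hi him (hθ' hik)
    · push Not at hle1
      filter_upwards [Iio_mem_nhds hle1] with θ' hθ'
      rintro ⟨h5, -⟩
      have hθ' : θ' < θ1 := hθ'
      linarith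
  have hmK1 : m ∈ K (yy v θ1 0) := by
    obtain ⟨i, hi, hi'⟩ := hQne θ1
    rwa [← hm1 i hi hi']
  have hSne : S.Nonempty := by
    refine ⟨θ1 + Real.pi / 3, by linarith, σ m, hσT m hm, (hσ1 m hm).symm, ?_⟩
    rw [yy_shift]
    exact (hfr' θ1 0 m hm).1 hmK1
  have hSbdd : BddBelow S := ⟨θ1, fun θ hθ => hθ.1⟩
  set θ0 := sInf S with hθ0
  have hθ0S : θ0 ∈ S := hSclosed.csInf_mem hSne hSbdd
  obtain ⟨h10, m', hm', hmm', hm'K⟩ := hθ0S
  have h10' : θ1 < θ0 := by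
    rcases h10.lt_or_eq with h5 | h5
    · exact h5
    · exfalso
      rw [← h5] at hm'K
      exact hmm' (hm1 m' hm' hm'K)
  have hpureI : ∀ θ, θ1 ≤ θ → θ < θ0 → m ∈ K (yy v θ 0) := by
    intro θ hθ1 hθ2
    have hnot : θ ∉ S := fun h5 => absurd (csInf_le hSbdd h5) (not_le.2 hθ2)
    obtain ⟨i, hi, hi'⟩ := hQne θ
    by_cases him : i = m
    · exact him ▸ hi'
    · exact absurd ⟨hθ1, i, hi, him, hi'⟩ hnot
  have hpureU : ∀ θ, θ1 ≤ θ → θ < θ0 → ∀ i, i ∉ T → i ∈ K (yy v θ 0) → i = m := by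
    intro θ hθ1 hθ2 i hi hi'
    by_contra him
    exact absurd (csInf_le hSbdd (show θ ∈ S from ⟨hθ1, i, hi, him, hi'⟩)) (not_le.2 hθ2)
  have hmK0 : m ∈ K (yy v θ0 0) := by
    have h5 : ∀ᶠ θ in 𝓝[<] θ0, K (yy v θ 0) ⊆ K (yy v θ0 0) :=
      mem_nhdsWithin_of_mem_nhds (husc θ0)
    have h6 : ∀ᶠ θ in 𝓝[<] θ0, θ1 < θ := mem_nhdsWithin_of_mem_nhds (Ioi_mem_nhds h10')
    obtain ⟨θ, h7, h8, h9⟩ := (h5.and (h6.and self_mem_nhdsWithin)).exists
    exact h7 (hpureI θ h8.le h9)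
  -- the left end of the arc
  set θa := max θ1 (θ0 - 1 / 2) with hθa
  have ha0 : θa < θ0 := max_lt h10' (by linarith)
  have ha1 : θ0 - θa ≤ 1 / 2 := by
    have := le_max_right θ1 (θ0 - 1 / 2); linarith
  have ha2 : θ1 ≤ θa := le_max_left _ _
  -- iterates
  set cc : ℕ → Fin 6 := fun k => σ^[k] m with hcc
  have hcs : ∀ k, cc (k + 1) = σ (cc k) := fun k => Function.iterate_succ_apply' σ k m
  have hcT : ∀ k, cc k ∉ T := by
    intro k
    induction k with
    | zero => exact hm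
    | succ k ih => rw [hcs]; exact hσT _ ih
  have hc1 : ∀ k, cc k ≠ cc (k + 1) := fun k => by rw [hcs]; exact hσ1 _ (hcT k)
  have hc2 : ∀ k, cc k ≠ cc (k + 2) := fun k => by
    rw [show k + 2 = k + 1 + 1 from rfl, hcs, hcs]; exact hσ2 _ (hcT k)
  have hc3 : ∀ k, cc (k + 3) = cc k := fun k => by
    rw [show k + 3 = k + 1 + 1 + 1 from rfl, hcs, hcs, hcs]; exact hσ3 _ (hcT k)
  have hiter : ∀ θ k j, (cc j ∈ K (yy v θ 0) ↔ cc (j + k) ∈ K (yy v θ k)) := by
    intro θ k j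
    induction k with
    | zero => rfl
    | succ k ih =>
      rw [ih, show j + (k + 1) = (j + k) + 1 from rfl, hcs]
      exact hfr' θ k _ (hcT _)
  have harcK : ∀ k, ∀ θ ∈ Icc θa θ0, cc k ∈ K (yy v θ k) := by
    intro k θ hθ
    have h5 : cc 0 ∈ K (yy v θ 0) := by
      rcases hθ.2.lt_or_eq with h6 | h6
      · exact hpureI θ (ha2.trans hθ.1) h6
      · rw [h6]; exact hmK0
    have := (hiter θ k 0).1 h5
    rwa [Nat.zero_add] at this
  have hin : ∀ k, cc k ∈ K (yy v θ0 k) := fun k => by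
    have := (hiter θ0 k 0).1 hmK0
    rwa [Nat.zero_add] at this
  have hpu : ∀ k θ i, θa ≤ θ → θ < θ0 → i ∉ T → i ∈ K (yy v θ k) → i = cc k := by
    intro k θ i hθ1 hθ2 hi hik
    have hu := hpureU θ (ha2.trans hθ1) hθ2
    rcases cover_compl' h3 (hcT k) (hcT (k + 1)) (hcT (k + 2)) (hc1 k) (hc1 (k + 1)) (hc2 k) hi
      with h5 | h5 | h5
    · exact h5
    · exfalso
      rw [h5, add_comm k 1] at hik
      exact hc1 0 (hu _ (hcT 1) ((hiter θ k 1).2 hik)).symm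
    · exfalso
      rw [h5, add_comm k 2] at hik
      exact hc2 0 (hu _ (hcT 2) ((hiter θ k 2).2 hik)).symm
  obtain ⟨q, hq, hq'⟩ := hQall θ0
  -- the two cases
  rcases hσcov m m' hm hm' with h6 | h6 | h6
  · exact absurd h6 hmm'
  · -- `m' = σ m`
    have hm1' : cc 1 ∈ K (yy v θ0 0) := by rw [hcs 0]; exact h6 ▸ hm'K
    have hm2' : cc 2 ∉ K (yy v θ0 0) := by
      rcases hσcov m q hm hq with h7 | h7 | h7
      · exact absurd (h7 ▸ hmK0) hq'
      · exact absurd (by rw [h7, ← h6]; exact hm'K) hq'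
      · rw [show (2 : ℕ) = 1 + 1 from rfl, hcs, hcs 0]; exact h7 ▸ hq'
    refine ⟨θa, θ0, cc, ha0, ha1, hcT, hc1, hc2, hc3, hin, harcK, hpu, Or.inl fun k => ⟨?_, ?_⟩⟩
    · have := (hiter θ0 k 1).1 hm1'
      rwa [add_comm] at this
    · intro h8
      apply hm2'
      rw [hiter θ0 k 2, add_comm]; exact h8
  · -- `m' = σ (σ m)`
    have hm2' : cc 2 ∈ K (yy v θ0 0) := by
      rw [show (2 : ℕ) = 1 + 1 from rfl, hcs, hcs 0]; exact h6 ▸ hm'K
    have hm1' : cc 1 ∉ K (yy v θ0 0) := by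
      rcases hσcov m q hm hq with h7 | h7 | h7
      · exact absurd (h7 ▸ hmK0) hq'
      · rw [hcs 0]; exact h7 ▸ hq'
      · exact absurd (by rw [h7, ← h6]; exact hm'K) hq'
    refine ⟨θa, θ0, cc, ha0, ha1, hcT, hc1, hc2, hc3, hin, harcK, hpu, Or.inr fun k => ⟨?_, ?_⟩⟩
    · have := (hiter θ0 k 2).1 hm2'
      rwa [add_comm] at this
    · intro h8
      apply hm1'
      rw [hiter θ0 k 1, add_comm]; exact h8


end data

variable {U : Fin 6 → Set ℂ} {T : ℂ → Set (Fin 6)}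

/-- **case A**: if the colour `c'` lives near `y` inside `cl D(b)` then the colour `t` lives near
`v` outside `D(y)` -/
theorem fzA (h : Irr U T) {v y a b : ℂ} {c c' t : Fin 6} (h1 : dist v a = 1) (h2 : dist y a = 1)
    (h3 : dist y v = 1) (hb : b = v + y - a) (hpal : T y ⊆ {c, c', t})
    (hca : c ∈ Pal U a) (hc' : ∀ᶠ p in 𝓝 y, c' ∈ Pal U p → dist p b ≤ 1) :
    ∀ᶠ g in 𝓝 v, t ∈ Pal U g → 1 ≤ dist g y := by
  obtain ⟨κ, hκ, hv⟩ := circ_param h1 h2 h3
  obtain ⟨r, hr, hrp⟩ := Metric.eventually_nhds_iff.1 (hc'.and (h.nhd y))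
  set η := min (r / 2) 1 with hη
  have hη0 : 0 < η := lt_min (by linarith) one_pos
  have hηr : η < r := (min_le_left _ _).trans_lt (by linarith)
  have hη1 : η ≤ 1 := min_le_right _ _
  have hpi := Real.pi_gt_three
  -- outward points
  have hout : ∀ δ, -η ≤ δ → δ < 0 → 1 < dist (pt a y κ δ) v := by
    intro δ hδ1 hδ2
    have e1 := dist_pt_v h2 hκ hv δ
    have e2 : Real.cos (δ - Real.pi / 3) < 1 / 2 := by
      rw [← Real.cos_pi_div_three, ← Real.cos_neg (δ - Real.pi / 3)]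
      apply Real.cos_lt_cos_of_nonneg_of_le_pi
      · positivity
      · linarith
      · linarith
    have e3 := dist_nonneg (x := pt a y κ δ) (y := v)
    nlinarith
  have hev1 : ∀ᶠ g in 𝓝 v, 1 < dist (pt a y κ (-η)) g :=
    (continuous_const.dist continuous_id).continuousAt.eventually
      (Ioi_mem_nhds (hout (-η) le_rfl (by linarith)))
  have hev2 : ∀ᶠ g in 𝓝 v, dist g v < 1 / 4 := Metric.ball_mem_nhds v (by norm_num)
  have hev := hev1.and hev2
  rw [← eventually_eventually_nhds] at hev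
  filter_upwards [hev] with g0 hg0 ht0
  by_contra hcon
  push Not at hcon
  -- move `g0` into `U t`
  have hev3 : ∀ᶠ g in 𝓝 g0, dist g y < 1 :=
    (continuous_id.dist continuous_const).continuousAt.eventually (Iio_mem_nhds hcon)
  obtain ⟨g, ⟨⟨hg1, hg2⟩, hg3⟩, hgU⟩ := mem_closure_iff_nhds.1 ht0 _ (hg0.and hev3)
  -- intermediate value
  have hcont : ContinuousOn (fun δ => dist (pt a y κ δ) g) (Icc (-η) 0) :=
    ((continuous_pt a y κ).dist continuous_const).continuousOn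
  have hmem : (1 : ℝ) ∈ Icc (dist (pt a y κ 0) g) (dist (pt a y κ (-η)) g) := by
    rw [pt_zero, dist_comm]
    exact ⟨hg3.le, hg1.le⟩
  obtain ⟨δ, ⟨hδ1, hδ2⟩, hδ⟩ := intermediate_value_Icc' (by linarith) hcont hmem
  have hδ : dist (pt a y κ δ) g = 1 := hδ
  have hδ3 : δ < 0 := by
    rcases hδ2.lt_or_eq with h4 | h4
    · exact h4
    · rw [h4, pt_zero, dist_comm] at hδ; linarith
  set p := pt a y κ δ with hp
  have hpa : dist p a = 1 := dist_pt_a h2 κ δ
  have hpv : 1 < dist p v := hout δ hδ1 hδ3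
  have hpb : 1 < dist p b := by
    have e1 := dist_pt_b h1 h2 h3 hpa
    rw [← hb] at e1
    have e2 := dist_nonneg (x := p) (y := b)
    have e3 := sq_nonneg (dist p y)
    nlinarith
  have hpy : dist p y < r := by
    refine (dist_pt_y_le h2 hκ δ).trans_lt ?_
    rw [abs_of_neg hδ3]; linarith
  have hga : g ≠ a := by
    rintro rfl
    rw [dist_comm] at hg2
    linarith
  have hga2 : g + a ≠ 2 * p := by
    intro h5
    have h6 : g - a = 2 * (p - a) := by linear_combination h5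
    have h7 : dist g a = 2 := by
      rw [dist_eq_norm, h6, norm_mul, ← dist_eq_norm, hpa]; simp
    have h8 := dist_triangle g v a
    linarith
  have hO : {q | 1 < dist q b} ∩ {q | dist q y < r} ∈ 𝓝 p :=
    inter_mem ((continuous_id.dist continuous_const).continuousAt.eventually (Ioi_mem_nhds hpb))
      ((continuous_id.dist continuous_const).continuousAt.eventually (Iio_mem_nhds hpy))
  obtain ⟨q, ⟨hq1, hq2⟩, hq3, hq4⟩ := core h.mx hgU hca hδ hpa hga hga2 hO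
  obtain ⟨hq5, hq6⟩ := hrp hq2
  obtain ⟨i, hi⟩ := h.ne q
  rcases hpal (hq6 hi) with rfl | rfl | rfl
  · exact hq3 (h.sub q hi)
  · have := hq5 (h.sub q hi)
    have hq1 : 1 < dist q b := hq1
    linarith
  · exact hq4 (h.sub q hi)

/-- **case B**: if the colour `c'` lives near `y` outside `D(b)` then the colour `t` lives near
`v` inside `cl D(y)` -/
theorem fzB (h : Irr U T) {v y a b : ℂ} {c c' t : Fin 6} (h1 : dist v a = 1) (h2 : dist y a = 1)
    (h3 : dist y v = 1) (hb : b = v + y - a) (hpal : T y ⊆ {c, c', t})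
    (hca : c ∈ Pal U a) (hc' : ∀ᶠ p in 𝓝 y, c' ∈ Pal U p → 1 ≤ dist p b) :
    ∀ᶠ g in 𝓝 v, t ∈ Pal U g → dist g y ≤ 1 := by
  obtain ⟨κ, hκ, hv⟩ := circ_param h1 h2 h3
  obtain ⟨r, hr, hrp⟩ := Metric.eventually_nhds_iff.1 (hc'.and (h.nhd y))
  set η := min (r / 2) 1 with hη
  have hη0 : 0 < η := lt_min (by linarith) one_pos
  have hηr : η < r := (min_le_left _ _).trans_lt (by linarith)
  have hη1 : η ≤ 1 := min_le_right _ _
  have hpi := Real.pi_gt_three
  -- inward points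
  have hin : ∀ δ, 0 < δ → δ ≤ η → dist (pt a y κ δ) v < 1 := by
    intro δ hδ1 hδ2
    have e1 := dist_pt_v h2 hκ hv δ
    have e2 : 1 / 2 < Real.cos (δ - Real.pi / 3) := by
      rw [← Real.cos_pi_div_three, ← Real.cos_neg (δ - Real.pi / 3)]
      apply Real.cos_lt_cos_of_nonneg_of_le_pi
      · linarith
      · linarith
      · linarith
    have e3 := dist_nonneg (x := pt a y κ δ) (y := v)
    nlinarith
  have hinb : ∀ δ, 0 < δ → δ ≤ η → dist (pt a y κ δ) b < 1 := by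
    intro δ hδ1 hδ2
    have e1 := dist_pt_v h2 hκ hv δ
    have e2 := dist_pt_y h2 hκ δ
    have e3 := dist_pt_b h1 h2 h3 (dist_pt_a h2 κ δ)
    rw [← hb] at e3
    -- `cos δ + cos (δ - π/3) > 3/2`
    have e4 : 3 / 2 < Real.cos δ + Real.cos (δ - Real.pi / 3) := by
      have e5 : Real.cos δ + Real.cos (δ - Real.pi / 3) =
          2 * Real.cos (δ - Real.pi / 6) * Real.cos (Real.pi / 6) := by
        have e6 : Real.cos δ = Real.cos (δ - Real.pi / 6) * Real.cos (Real.pi / 6) -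
            Real.sin (δ - Real.pi / 6) * Real.sin (Real.pi / 6) := by
          rw [← Real.cos_add]; congr 1; ring
        have e7 : Real.cos (δ - Real.pi / 3) =
            Real.cos (δ - Real.pi / 6) * Real.cos (Real.pi / 6) +
            Real.sin (δ - Real.pi / 6) * Real.sin (Real.pi / 6) := by
          rw [← Real.cos_sub]; congr 1; ring
        rw [e6, e7]; ring
      have e8 : Real.cos (Real.pi / 6) < Real.cos (δ - Real.pi / 6) := by
        rw [← Real.cos_abs (δ - Real.pi / 6)]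
        apply Real.cos_lt_cos_of_nonneg_of_le_pi (abs_nonneg _) (by linarith)
        rw [abs_lt]; constructor <;> linarith
      rw [e5]
      rw [Real.cos_pi_div_six] at *
      have hs : Real.sqrt 3 ^ 2 = 3 := Real.sq_sqrt (by norm_num)
      have hs0 : 0 < Real.sqrt 3 := Real.sqrt_pos.2 (by norm_num)
      nlinarith
    have e9 := dist_nonneg (x := pt a y κ δ) (y := b)
    nlinarith
  have hev1 : ∀ᶠ g in 𝓝 v, dist (pt a y κ η) g < 1 :=
    (continuous_const.dist continuous_id).continuousAt.eventually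
      (Iio_mem_nhds (hin η hη0 le_rfl))
  have hev2 : ∀ᶠ g in 𝓝 v, dist g v < 1 / 4 := Metric.ball_mem_nhds v (by norm_num)
  have hev := hev1.and hev2
  rw [← eventually_eventually_nhds] at hev
  filter_upwards [hev] with g0 hg0 ht0
  by_contra hcon
  push Not at hcon
  have hev3 : ∀ᶠ g in 𝓝 g0, 1 < dist g y :=
    (continuous_id.dist continuous_const).continuousAt.eventually (Ioi_mem_nhds hcon)
  obtain ⟨g, ⟨⟨hg1, hg2⟩, hg3⟩, hgU⟩ := mem_closure_iff_nhds.1 ht0 _ (hg0.and hev3)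
  have hcont : ContinuousOn (fun δ => dist (pt a y κ δ) g) (Icc 0 η) :=
    ((continuous_pt a y κ).dist continuous_const).continuousOn
  have hmem : (1 : ℝ) ∈ Icc (dist (pt a y κ η) g) (dist (pt a y κ 0) g) := by
    rw [pt_zero, dist_comm y g]
    exact ⟨hg1.le, hg3.le⟩
  obtain ⟨δ, ⟨hδ1, hδ2⟩, hδ⟩ := intermediate_value_Icc' hη0.le hcont hmem
  have hδ : dist (pt a y κ δ) g = 1 := hδ
  have hδ3 : 0 < δ := by
    rcases hδ1.lt_or_eq with h4 | h4
    · exact h4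
    · rw [← h4, pt_zero, dist_comm] at hδ; linarith
  set p := pt a y κ δ with hp
  have hpa : dist p a = 1 := dist_pt_a h2 κ δ
  have hpb : dist p b < 1 := hinb δ hδ3 hδ2
  have hpy : dist p y < r := by
    refine (dist_pt_y_le h2 hκ δ).trans_lt ?_
    rw [abs_of_pos hδ3]; linarith
  have hga : g ≠ a := by
    rintro rfl
    rw [dist_comm] at hg2
    linarith
  have hga2 : g + a ≠ 2 * p := by
    intro h5
    have h6 : g - a = 2 * (p - a) := by linear_combination h5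
    have h7 : dist g a = 2 := by
      rw [dist_eq_norm, h6, norm_mul, ← dist_eq_norm, hpa]; simp
    have h8 := dist_triangle g v a
    linarith
  have hO : {q | dist q b < 1} ∩ {q | dist q y < r} ∈ 𝓝 p :=
    inter_mem ((continuous_id.dist continuous_const).continuousAt.eventually (Iio_mem_nhds hpb))
      ((continuous_id.dist continuous_const).continuousAt.eventually (Iio_mem_nhds hpy))
  obtain ⟨q, ⟨hq1, hq2⟩, hq3, hq4⟩ := core h.mx hgU hca hδ hpa hga hga2 hO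
  obtain ⟨hq5, hq6⟩ := hrp hq2
  obtain ⟨i, hi⟩ := h.ne q
  rcases hpal (hq6 hi) with rfl | rfl | rfl
  · exact hq3 (h.sub q hi)
  · have := hq5 (h.sub q hi)
    have hq1 : dist q b < 1 := hq1
    linarith
  · exact hq4 (h.sub q hi)

/-- final contradiction, case A -/
theorem finA (h : Irr U T) {v : ℂ} (hv : v ∈ XX U) (h3 : (T v).ncard = 3) (θ : ℝ)
    (t : ℕ → Fin 6) (ht : ∀ k, t k ∈ T v) (hne : ∀ k, t k ≠ t (k + 1))
    (hA : ∀ k, ∀ᶠ g in 𝓝 v, t k ∈ Pal U g → 1 ≤ dist g (yy v θ k)) : False := by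
  by_cases halt : t 0 = t 2 ∧ t 2 = t 4
  · obtain ⟨h02, h24⟩ := halt
    have hev : ∀ᶠ g in 𝓝 v, (t 0 ∈ Pal U g → 1 ≤ dist g (yy v θ 0)) ∧
        (t 2 ∈ Pal U g → 1 ≤ dist g (yy v θ 2)) ∧ (t 4 ∈ Pal U g → 1 ≤ dist g (yy v θ 4)) ∧
        dist g v < 1 / 2 :=
      (hA 0).and ((hA 2).and ((hA 4).and (Metric.ball_mem_nhds v (by norm_num))))
    obtain ⟨g, ⟨g0, g2, g4, g5⟩, hgU⟩ := mem_closure_iff_nhds.1 (h.sub v (ht 0)) _ hev
    have hg0 := g0 (subset_closure hgU)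
    have hg2 := g2 (h02 ▸ subset_closure hgU)
    have hg4 := g4 (h24 ▸ h02 ▸ subset_closure hgU)
    have hgv : g ≠ v := by
      rintro rfl
      exact hv _ hgU
    have hr : 0 < dist g v := dist_pos.2 hgv
    have e0 := dist_sq_ip g v (yy v θ 0) (dist_yy v θ 0)
    have e2 := dist_sq_ip g v (yy v θ 2) (dist_yy v θ 2)
    have e4 := dist_sq_ip g v (yy v θ 4) (dist_yy v θ 4)
    have es := ip_sum v g θ 0
    have eq := ip_sq_sum v g θ 0
    simp only [Nat.zero_add] at es eq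
    set a0 := ip (g - v) (yy v θ 0 - v)
    set a2 := ip (g - v) (yy v θ 2 - v)
    set a4 := ip (g - v) (yy v θ 4 - v)
    set r := dist g v
    have b0 : a0 ≤ r ^ 2 / 2 := by nlinarith
    have b2 : a2 ≤ r ^ 2 / 2 := by nlinarith
    have b4 : a4 ≤ r ^ 2 / 2 := by nlinarith
    have c0 : -(r ^ 2) ≤ a0 := by linarith
    have c2 : -(r ^ 2) ≤ a2 := by linarith
    have c4 : -(r ^ 2) ≤ a4 := by linarith
    have hr2 : 0 < r ^ 2 := by positivity
    have d0 : a0 ^ 2 ≤ (r ^ 2) ^ 2 := sq_le_sq' c0 (by linarith)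
    have d2 : a2 ^ 2 ≤ (r ^ 2) ^ 2 := sq_le_sq' c2 (by linarith)
    have d4 : a4 ^ 2 ≤ (r ^ 2) ^ 2 := sq_le_sq' c4 (by linarith)
    have hr3 : r ^ 2 < 1 / 4 := by nlinarith
    nlinarith
  · -- three consecutive different colours
    have hk : ∃ k, t k ≠ t (k + 2) := by
      by_contra hcon
      push Not at hcon
      exact halt ⟨hcon 0, hcon 2⟩
    obtain ⟨k, hk⟩ := hk
    have hev : ∀ᶠ g in 𝓝 v, (t k ∈ Pal U g → 1 ≤ dist g (yy v θ k)) ∧
        (t (k + 1) ∈ Pal U g → 1 ≤ dist g (yy v θ (k + 1))) ∧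
        (t (k + 2) ∈ Pal U g → 1 ≤ dist g (yy v θ (k + 2))) ∧ T g ⊆ T v :=
      (hA k).and ((hA (k + 1)).and ((hA (k + 2)).and (h.nhd v)))
    obtain ⟨ρ, hρ, hball⟩ := Metric.eventually_nhds_iff.1 hev
    set r := min (ρ / 2) (1 / 2) with hr
    have hr0 : 0 < r := lt_min (by linarith) (by norm_num)
    have hr1 : r < ρ := (min_le_left _ _).trans_lt (by linarith)
    have hr2 : r ≤ 1 / 2 := min_le_right _ _
    set g := v + (r : ℂ) * (yy v θ (k + 1) - v) with hg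
    obtain ⟨g0, g1, g2, g3⟩ := hball (y := g) (by rw [hg, dist_move, abs_of_pos hr0]; exact hr1)
    obtain ⟨i, hi⟩ := h.ne g
    have q0 := dist_move_sq v θ k r k
    have q1 := dist_move_sq v θ k r (k + 1)
    have q2 := dist_move_sq v θ k r (k + 2)
    rw [ip_half] at q0
    rw [ip_one] at q1
    rw [ip_half'] at q2
    rw [← hg] at q0 q1 q2
    have p0 := dist_nonneg (x := g) (y := yy v θ k)
    have p1 := dist_nonneg (x := g) (y := yy v θ (k + 1))
    have p2 := dist_nonneg (x := g) (y := yy v θ (k + 2))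
    rcases three_cover h3 (ht k) (ht (k + 1)) (ht (k + 2)) (hne k) (hne (k + 1)) hk (g3 hi)
      with rfl | rfl | rfl
    · have := g0 (h.sub g hi); nlinarith
    · have := g1 (h.sub g hi); nlinarith
    · have := g2 (h.sub g hi); nlinarith

/-- final contradiction, case B -/
theorem finB (h : Irr U T) {v : ℂ} (hv : v ∈ XX U) (h3 : (T v).ncard = 3) (θ : ℝ)
    (t : ℕ → Fin 6) (ht : ∀ k, t k ∈ T v) (hne : ∀ k, t k ≠ t (k + 1))
    (hB : ∀ k, ∀ᶠ g in 𝓝 v, t k ∈ Pal U g → dist g (yy v θ k) ≤ 1) : False := by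
  by_cases halt : t 0 = t 2 ∧ t 2 = t 4
  · obtain ⟨h02, h24⟩ := halt
    have hev : ∀ᶠ g in 𝓝 v, (t 0 ∈ Pal U g → dist g (yy v θ 0) ≤ 1) ∧
        (t 2 ∈ Pal U g → dist g (yy v θ 2) ≤ 1) ∧ (t 4 ∈ Pal U g → dist g (yy v θ 4) ≤ 1) :=
      (hB 0).and ((hB 2).and (hB 4))
    obtain ⟨g, ⟨g0, g2, g4⟩, hgU⟩ := mem_closure_iff_nhds.1 (h.sub v (ht 0)) _ hev
    have hg0 := g0 (subset_closure hgU)
    have hg2 := g2 (h02 ▸ subset_closure hgU)
    have hg4 := g4 (h24 ▸ h02 ▸ subset_closure hgU)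
    have hgv : g ≠ v := by
      rintro rfl
      exact hv _ hgU
    have hr : 0 < dist g v := dist_pos.2 hgv
    have e0 := dist_sq_ip g v (yy v θ 0) (dist_yy v θ 0)
    have e2 := dist_sq_ip g v (yy v θ 2) (dist_yy v θ 2)
    have e4 := dist_sq_ip g v (yy v θ 4) (dist_yy v θ 4)
    have es := ip_sum v g θ 0
    simp only [Nat.zero_add] at es
    have p0 := dist_nonneg (x := g) (y := yy v θ 0)
    have p2 := dist_nonneg (x := g) (y := yy v θ 2)
    have p4 := dist_nonneg (x := g) (y := yy v θ 4)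
    have hr2 : 0 < dist g v ^ 2 := by positivity
    have b0 : dist g (yy v θ 0) ^ 2 ≤ 1 := by nlinarith
    have b2 : dist g (yy v θ 2) ^ 2 ≤ 1 := by nlinarith
    have b4 : dist g (yy v θ 4) ^ 2 ≤ 1 := by nlinarith
    linarith
  · have hk : ∃ k, t k ≠ t (k + 2) := by
      by_contra hcon
      push Not at hcon
      exact halt ⟨hcon 0, hcon 2⟩
    obtain ⟨k, hk⟩ := hk
    have hev : ∀ᶠ g in 𝓝 v, (t k ∈ Pal U g → dist g (yy v θ k) ≤ 1) ∧
        (t (k + 1) ∈ Pal U g → dist g (yy v θ (k + 1)) ≤ 1) ∧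
        (t (k + 2) ∈ Pal U g → dist g (yy v θ (k + 2)) ≤ 1) ∧ T g ⊆ T v :=
      (hB k).and ((hB (k + 1)).and ((hB (k + 2)).and (h.nhd v)))
    obtain ⟨ρ, hρ, hball⟩ := Metric.eventually_nhds_iff.1 hev
    set r := ρ / 2 with hr
    have hr0 : 0 < r := by positivity
    have hr1 : r < ρ := by linarith
    set g := v + ((-r : ℝ) : ℂ) * (yy v θ (k + 1) - v) with hg
    obtain ⟨g0, g1, g2, g3⟩ := hball (y := g) (by
      rw [hg, dist_move, abs_neg, abs_of_pos hr0]; exact hr1)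
    obtain ⟨i, hi⟩ := h.ne g
    have q0 := dist_move_sq v θ k (-r) k
    have q1 := dist_move_sq v θ k (-r) (k + 1)
    have q2 := dist_move_sq v θ k (-r) (k + 2)
    rw [ip_half] at q0
    rw [ip_one] at q1
    rw [ip_half'] at q2
    rw [← hg] at q0 q1 q2
    have p0 := dist_nonneg (x := g) (y := yy v θ k)
    have p1 := dist_nonneg (x := g) (y := yy v θ (k + 1))
    have p2 := dist_nonneg (x := g) (y := yy v θ (k + 2))
    rcases three_cover h3 (ht k) (ht (k + 1)) (ht (k + 2)) (hne k) (hne (k + 1)) hk (g3 hi)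
      with rfl | rfl | rfl
    · have := g0 (h.sub g hi); nlinarith
    · have := g1 (h.sub g hi); nlinarith
    · have := g2 (h.sub g hi); nlinarith

end Vale.Agent.P032.S5.H180.Fz
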